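import Vale.Agent.P286E50.Prod
import Vale.Agent.P286EK.Twq
import Vale.Agent.P286E48.Wa

/-!
# Splitting along a central idempotent
-/

namespace Vale.Agent.P286E50

open CategoryTheory Vale.Agent.P286.H353 Vale.Agent.P286E Vale.Agent.P286EG Vale.Agent.P286EK
open Vale.Agent.P286.H847 Vale.Agent.P286.H847.GD Vale.Agent.P286.H710

noncomputable section

universe u v

variable {A A₁ A₂ : DGA}

/-- Two complementary homomorphisms; the idempotents are central. -/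
structure Cpl (φ : NHom A₁ A) (ψ : NHom A₂ A) : Prop where
  one : φ.e + ψ.e = 1
  cen : ∀ x, φ.e * x = x * φ.e

namespace Cpl

variable {φ : NHom A₁ A} {ψ : NHom A₂ A} (h : Cpl φ ψ)

include h

theorem e_eq : ψ.e = 1 - φ.e := eq_sub_of_add_eq' h.one

theorem symm : Cpl ψ φ :=
  ⟨(add_comm _ _).trans h.one, fun x => by rw [h.e_eq, sub_mul, mul_sub, one_mul, mul_one, h.cen]⟩

theorem ee : φ.e * ψ.e = 0 := by
  have e : φ.e * φ.e = φ.e := φ.e_mul 1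
  rw [h.e_eq, mul_sub, mul_one, e, sub_self]

theorem e_f (b : A₂.R) : φ.e * ψ.f b = 0 := by rw [← ψ.e_mul, ← mul_assoc, h.ee, zero_mul]

theorem orth (a : A₁.R) (b : A₂.R) : φ.f a * ψ.f b = 0 := by
  rw [← φ.mul_e, mul_assoc, h.e_f, mul_zero]

theorem dec (x : A.R) : φ.e * (x * φ.e) + ψ.e * (x * ψ.e) = x := by
  have e : φ.e * φ.e = φ.e := φ.e_mul 1
  have e' : ψ.e * ψ.e = ψ.e := ψ.e_mul 1
  rw [← h.cen, ← h.symm.cen, ← mul_assoc, ← mul_assoc, e, e', ← add_mul, h.one, one_mul]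

/-- The sum `(a, b) ↦ φ a + ψ b`. -/
def sum : NHom (pa A₁ A₂) A where
  f := φ.f.coprod ψ.f
  mul a b := by
    change φ.f (a.1 * b.1) + ψ.f (a.2 * b.2) = (φ.f a.1 + ψ.f a.2) * (φ.f b.1 + ψ.f b.2)
    rw [φ.mul, ψ.mul, add_mul, mul_add, mul_add, h.orth, h.symm.orth, add_zero, zero_add]
  comm a := by
    change φ.f (A₁.d a.1) + ψ.f (A₂.d a.2) = A.d (φ.f a.1 + ψ.f a.2)
    rw [φ.comm, ψ.comm, map_add]
  deg m _ ha := add_mem (φ.deg m _ ha.1) (ψ.deg m _ ha.2)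

theorem sum_f (a : (pa A₁ A₂).R) : h.sum.f a = φ.f a.1 + ψ.f a.2 := rfl

theorem bd {m : ℤ} {a : A₁.R} {b : A₂.R} {y : A.R} (hy : y ∈ A.gr m)
    (e : A.d y = φ.f a + ψ.f b) : ∃ y ∈ A.gr m, A.d y = φ.f a :=
  ⟨φ.e * y, φ.L.t.deg m y hy, (φ.L.t.comm y).symm.trans (by
    change φ.e * A.d y = _
    rw [e, mul_add, φ.e_mul, h.e_f, add_zero])⟩

theorem qis (h₁ : MorH φ) (h₂ : MorH ψ) : Qis h.sum.hom := by
  intro m
  refine ⟨?_, fun y hy hd => ?_⟩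
  · rintro x hx hd ⟨y, hy, e⟩
    obtain ⟨a, ha, ea⟩ := (h₁ m).1 x.1 hx.1 (congrArg Prod.fst hd) (h.bd hy e)
    obtain ⟨b, hb, eb⟩ := (h₂ m).1 x.2 hx.2 (congrArg Prod.snd hd)
      (h.symm.bd hy (e.trans (add_comm _ _)))
    exact ⟨(a, b), ⟨ha, hb⟩, Prod.ext ea eb⟩
  · obtain ⟨a, ha, da, a', ha', ea⟩ := (h₁ m).2 y hy hd
    obtain ⟨b, hb, db, b', hb', eb⟩ := (h₂ m).2 y hy hd
    refine ⟨(a, b), ⟨ha, hb⟩, Prod.ext da db, a' + b', add_mem ha' hb', ?_⟩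
    change A.d (a' + b') = y - (φ.f a + ψ.f b)
    rw [map_add, ea, eb, sub_add_sub_comm, h.dec]

end Cpl

theorem NHom.prj (φ : NHom A₁ A) (P : Prj A₁.G) (Q : Prj A.G) (m : ℤ) (a : A₁.R) :
    φ.f (P.P m a) = Q.P m (φ.f a) := by
  induction a using A₁.ind with
  | zero => simp
  | hom n x hx =>
    by_cases h : n = m
    · subst h
      rw [P.eq _ _ hx, Q.eq _ _ (φ.deg _ _ hx)]
    · rw [P.ne _ _ h _ hx, Q.ne _ _ h _ (φ.deg _ _ hx), map_zero]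
  | add x y hx hy => simp only [map_add, hx, hy]

/-- An isomorphism onto the corner. -/
theorem morH_of_corner (φ : NHom A₁ A) (hi : Function.Injective φ.f)
    (hs : ∀ x, ∃ a, φ.f a = φ.e * (x * φ.e)) : MorH φ := by
  obtain ⟨P⟩ := Prj.nonempty (M := A₁.G) A₁.int
  obtain ⟨Q⟩ := Prj.nonempty (M := A.G) A.int
  have hd : ∀ x, A.d (φ.e * (x * φ.e)) = φ.e * (A.d x * φ.e) := fun x => by
    rw [A.leib, A.leib, φ.d_e, φ.sg_e, zero_mul, zero_add, mul_zero, add_zero]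
  have hs' : ∀ m, ∀ x ∈ A.gr m, ∃ a ∈ A₁.gr m, φ.f a = φ.e * (x * φ.e) := fun m x hx => by
    obtain ⟨a, e⟩ := hs x
    refine ⟨P.P m a, P.mem m a, ?_⟩
    rw [NHom.prj φ P Q, e]
    refine Q.eq m _ ?_
    have := A.mul_gr _ _ _ _ φ.e_mem (A.mul_gr _ _ _ _ hx φ.e_mem)
    rwa [zero_add, add_zero] at this
  intro m
  refine ⟨?_, fun b hb db => ?_⟩
  · rintro a - - ⟨b, hb, e⟩
    obtain ⟨a', ha', e'⟩ := hs' _ b hb
    exact ⟨a', ha', hi (by rw [φ.comm, e', hd, e, φ.mul_e, φ.e_mul])⟩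
  · obtain ⟨a, ha, e⟩ := hs' _ b hb
    exact ⟨a, ha, hi (by rw [φ.comm, e, hd, db, zero_mul, mul_zero, map_zero]), 0, zero_mem _,
      by rw [e, map_zero, sub_self]⟩

/-- A strict splitting `A = A₁ × A₂`. -/
structure Spl (φ : NHom A₁ A) (ψ : NHom A₂ A) : Prop where
  one : φ.f 1 + ψ.f 1 = 1
  inj₁ : Function.Injective φ.f
  inj₂ : Function.Injective ψ.f
  sur : ∀ x, ∃ a b, x = φ.f a + ψ.f b

namespace Spl

variable {φ : NHom A₁ A} {ψ : NHom A₂ A} (h : Spl φ ψ)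

include h

theorem symm : Spl ψ φ := ⟨(add_comm _ _).trans h.one, h.inj₂, h.inj₁, fun x => by
  obtain ⟨a, b, e⟩ := h.sur x
  exact ⟨b, a, e.trans (add_comm _ _)⟩⟩

theorem cpl : Cpl φ ψ := by
  have e : φ.e * φ.e = φ.e := φ.e_mul 1
  have e1 : ψ.e = 1 - φ.e := eq_sub_of_add_eq' h.one
  refine ⟨h.one, fun x => ?_⟩
  obtain ⟨a, b, rfl⟩ := h.sur x
  have e2 : φ.e * ψ.f b = 0 := by
    rw [← ψ.e_mul, ← mul_assoc, e1, mul_sub, mul_one, e, sub_self, zero_mul]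
  have e3 : ψ.f b * φ.e = 0 := by
    rw [← ψ.mul_e, mul_assoc, e1, sub_mul, one_mul, e, sub_self, mul_zero]
  rw [mul_add, add_mul, φ.e_mul, φ.mul_e, e2, e3]

theorem morH₁ : MorH φ := morH_of_corner φ h.inj₁ fun x => by
  obtain ⟨a, b, rfl⟩ := h.sur x
  refine ⟨a, ?_⟩
  rw [← mul_assoc, mul_add, φ.e_mul, h.cpl.e_f, add_zero, φ.mul_e]

theorem morH₂ : MorH ψ := h.symm.morH₁

end Spl

variable {I : Type u} [Category.{v} I] {D D₁ D₂ : DD I} {R : RD I}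

/-- The sum of two complementary homomorphisms of diagrams. -/
def sumD (f : DHom D₁ D) (g : DHom D₂ D) (h : ∀ i, Cpl (f.φ i) (g.φ i)) : DHom (pd D₁ D₂) D :=
  ⟨fun i => (h i).sum, fun α a =>
    (map_add (D.τ α).f _ _).trans (congrArg₂ (· + ·) (f.nat α a.1) (g.nat α a.2))⟩

/-- **Splitting along a central idempotent.** -/
theorem split {b : Base D R} {b₁ : Base D₁ R} {b₂ : Base D₂ R} (f : DHom D₁ D) (g : DHom D₂ D)
    (h : ∀ i, Cpl (f.φ i) (g.φ i)) (hf : ∀ i, MorH (f.φ i)) (hg : ∀ i, MorH (g.φ i))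
    (of : f.Over b₁ b) (og : g.Over b₂ b) : EQV (wc b) ((wc b₁).prod (wc b₂)) :=
  ((sumD f g h).eqc1 (b := pb b₁ b₂) (b' := b) (fun i => (h i).one)
    (fun i => (h i).qis (hf i) (hg i)) fun i z =>
      (congrArg₂ (· + ·) (of.l i z) (og.l i z)).trans
        ((add_mul _ _ _).symm.trans (by rw [(h i).one, one_mul]))).symm.trans (eqv_pd b₁ b₂)

theorem Cpl.tw {φ : NHom A₁ A} {ψ : NHom A₂ A} (h : Cpl φ ψ) (F₁ : CZ A₁) (F₂ : CZ A₂) (F : CZ A)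
    (hl hr hl' hr') : Cpl (φ.tw1 F₁ F hl hr) (ψ.tw1 F₂ F hl' hr') := by
  refine ⟨by rw [NHom.tw1_e, NHom.tw1_e, ← map_add, h.one, map_one], fun x => ?_⟩
  rw [NHom.tw1_e]
  refine TwA.ext4 ?_ ?_ ?_ ?_ <;> simp [Matrix.mul_apply, TwA.sc_m, h.cen]

open TensorProduct P286E48 in
theorem Cpl.tn {φ : NHom A₁ A} {ψ : NHom A₂ A} (h : Cpl φ ψ) (S : Type) [Ring S] [Algebra ℂ S] :
    Cpl (tn S φ) (tn S ψ) := by
  refine ⟨by rw [tn_e, tn_e, ← tmul_add, h.one]; rfl, fun x => ?_⟩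
  rw [tn_e]
  induction x using TensorProduct.induction_on with
  | zero => rw [mul_zero, zero_mul]
  | tmul r a =>
    rw [Algebra.TensorProduct.tmul_mul_tmul, Algebra.TensorProduct.tmul_mul_tmul, one_mul, mul_one,
      h.cen]
  | add x y hx hy => rw [mul_add, add_mul, hx, hy]

/-- **Splitting of the twisted matrix algebras.** -/
theorem split_tw {b : Base D R} {b₁ : Base D₁ R} {b₂ : Base D₂ R} (f : DHom D₁ D) (g : DHom D₂ D)
    (h : ∀ i, Cpl (f.φ i) (g.φ i)) (hf : ∀ i, MorH (f.φ i)) (hg : ∀ i, MorH (g.φ i))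
    (of : f.Over b₁ b) (og : g.Over b₂ b) (T₁ : TD D₁) (T₂ : TD D₂) (T : TD D)
    (hl : ∀ i a, (f.φ i).f ((T₁.F i).x * a) = (T.F i).x * (f.φ i).f a)
    (hr : ∀ i a, (f.φ i).f (a * (T₁.F i).x) = (f.φ i).f a * (T.F i).x)
    (ul : ∀ {i j : I} (α : i ⟶ j) a, (f.φ j).f (T₁.u α * a) = T.u α * (f.φ j).f a)
    (ur : ∀ {i j : I} (α : i ⟶ j) a, (f.φ j).f (a * T₁.u α) = (f.φ j).f a * T.u α)
    (hl' : ∀ i a, (g.φ i).f ((T₂.F i).x * a) = (T.F i).x * (g.φ i).f a)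
    (hr' : ∀ i a, (g.φ i).f (a * (T₂.F i).x) = (g.φ i).f a * (T.F i).x)
    (ul' : ∀ {i j : I} (α : i ⟶ j) a, (g.φ j).f (T₂.u α * a) = T.u α * (g.φ j).f a)
    (ur' : ∀ {i j : I} (α : i ⟶ j) a, (g.φ j).f (a * T₂.u α) = (g.φ j).f a * T.u α)
    (hF hu hF₁ hu₁ hF₂ hu₂) : EQV (wc (b.tw T hF hu))
      ((wc (b₁.tw T₁ hF₁ hu₁)).prod (wc (b₂.tw T₂ hF₂ hu₂))) :=
  split (f.tw T₁ T hl hr ul ur) (g.tw T₂ T hl' hr' ul' ur')
    (fun i => (h i).tw _ _ _ (hl i) (hr i) (hl' i) (hr' i))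
    (fun i => MorH.tw1 _ (hl i) (hr i) (hf i)) (fun i => MorH.tw1 _ (hl' i) (hr' i) (hg i))
    (of.tw T₁ T hl hr ul ur hF₁ hu₁ hF hu) (og.tw T₂ T hl' hr' ul' ur' hF₂ hu₂ hF hu)

end

end Vale.Agent.P286E50
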