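import Vale.Agent.P286EK.Tw

/-!
# Products of diagrams of DG algebras
-/

namespace Vale.Agent.P286E50

open CategoryTheory Vale.Agent.P286.H353 Vale.Agent.P286E Vale.Agent.P286EG Vale.Agent.P286EK
open Vale.Agent.P286.H847 Vale.Agent.P286.H847.GD Vale.Agent.P286.H710

noncomputable section

universe u v u₁ v₁ u₂ v₂

/-- The product of two graded differential spaces. -/
abbrev gp (M N : GD) : GD where
  V := M.V × N.V
  d := M.d.prodMap N.d
  dd x := Prod.ext (M.dd x.1) (N.dd x.2)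
  gr m := (M.gr m).prod (N.gr m)
  dgr m x h := ⟨M.dgr m x.1 h.1, N.dgr m x.2 h.2⟩

/-- The product of two morphisms. -/
def gpm {M M' N N' : GD} (u : Hom M N) (v : Hom M' N') : Hom (gp M M') (gp N N') :=
  ⟨u.f.prodMap v.f, fun x => Prod.ext (u.comm x.1) (v.comm x.2),
    fun m x h => ⟨u.deg m x.1 h.1, v.deg m x.2 h.2⟩⟩

theorem qis_gpm {M M' N N' : GD} {u : Hom M N} {v : Hom M' N'} (hu : Qis u) (hv : Qis v) :
    Qis (gpm u v) := by
  intro m
  refine ⟨?_, fun y hy hd => ?_⟩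
  · rintro x hx hd ⟨y, hy, e⟩
    obtain ⟨a, ha, ea⟩ := (hu m).1 x.1 hx.1 (congrArg Prod.fst hd) ⟨y.1, hy.1, congrArg Prod.fst e⟩
    obtain ⟨b, hb, eb⟩ := (hv m).1 x.2 hx.2 (congrArg Prod.snd hd) ⟨y.2, hy.2, congrArg Prod.snd e⟩
    exact ⟨(a, b), ⟨ha, hb⟩, Prod.ext ea eb⟩
  · obtain ⟨a, ha, da, a', ha', ea⟩ := (hu m).2 y.1 hy.1 (congrArg Prod.fst hd)
    obtain ⟨b, hb, db, b', hb', eb⟩ := (hv m).2 y.2 hy.2 (congrArg Prod.snd hd)
    exact ⟨(a, b), ⟨ha, hb⟩, Prod.ext da db, (a', b'), ⟨ha', hb'⟩, Prod.ext ea eb⟩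

section DBp

variable {A B : Type} [CommRing A] [CommRing B]

/-- The product of two complexes of modules. -/
abbrev agp (M M' : AG A) : AG A where
  G := gp M.G M'.G
  fn := pfn M.fn M'.fn
  gr a _ _ h := ⟨M.gr a _ _ h.1, M'.gr a _ _ h.2⟩
  d a x := Prod.ext (M.d a x.1) (M'.d a x.2)

/-- A family with two members. -/
abbrev two (M M' : AG A) : Bool → AG A := fun l => Bool.rec M' M l

/-- From the product to the family. -/
def toPi (M M' : AG A) : Hom (agp M M').G (AG.pi (two M M')).G where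
  f := LinearMap.pi fun l => Bool.rec (motive := fun l =>
    M.G.V × M'.G.V →ₗ[ℂ] (two M M' l).G.V) (LinearMap.snd ℂ _ _) (LinearMap.fst ℂ _ _) l
  comm x := funext fun l => by cases l <;> rfl
  deg m x h l _ := by
    cases l
    · exact h.2
    · exact h.1

/-- From the family to the product. -/
def ofPi (M M' : AG A) : Hom (AG.pi (two M M')).G (agp M M').G where
  f := LinearMap.prod (LinearMap.proj (φ := fun l => (two M M' l).G.V) true)
    (LinearMap.proj (φ := fun l => (two M M' l).G.V) false)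
  comm _ := rfl
  deg _ _ h := ⟨h true trivial, h false trivial⟩

theorem db_prod [Algebra ℂ A] [Algebra.Smooth ℂ A] {f : A →+* B} {M M' : AG A} {N N' : AG B}
    {t : Hom M.G N.G} {t' : Hom M'.G N'.G} (h : DB f M N t) (h' : DB f M' N' t') :
    DB f (agp M M') (agp N N') (gpm t t') :=
  (DB.pi (M := two M M') (N := two N N') (t := fun l => Bool.rec (motive := fun l =>
      Hom (two M M' l).G (two N N' l).G) t' t l) fun l => by
    cases l
    · exact h'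
    · exact h).retract (u := toPi M M') (v := toPi N N') (r := ofPi M M') (s := ofPi N N')
    (fun a x => Prod.ext (h.1 a x.1) (h'.1 a x.2))
    (fun _ _ => funext fun l => by cases l <;> rfl) (fun _ _ => funext fun l => by cases l <;> rfl)
    (fun _ _ => rfl) (fun _ _ => rfl) (fun _ => funext fun l => by cases l <;> rfl)
    (fun _ => rfl) (fun _ => rfl) fun _ => rfl

end DBp

/-- The product of two DG algebras. -/
abbrev pa (A B : DGA) : DGA where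
  R := A.R × B.R
  d := A.d.prodMap B.d
  gr m := (A.gr m).prod (B.gr m)
  sg := A.sg.prodMap B.sg
  dd x := Prod.ext (A.dd x.1) (B.dd x.2)
  dgr m x h := ⟨A.dgr m x.1 h.1, B.dgr m x.2 h.2⟩
  sg_gr m x h := Prod.ext (A.sg_gr m x.1 h.1) (B.sg_gr m x.2 h.2)
  leib a b := Prod.ext (A.leib a.1 b.1) (B.leib a.2 b.2)
  mul_gr i j a b ha hb := ⟨A.mul_gr i j _ _ ha.1 hb.1, B.mul_gr i j _ _ ha.2 hb.2⟩
  one_gr := ⟨A.one_gr, B.one_gr⟩
  int := by
    obtain ⟨P⟩ := Prj.nonempty (M := A.G) A.int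
    obtain ⟨Q⟩ := Prj.nonempty (M := B.G) B.int
    refine Prj.internal (M := gp A.G B.G) ⟨fun m => (P.P m).prodMap (Q.P m),
      fun m x => ⟨P.mem m x.1, Q.mem m x.2⟩,
      fun m x h => Prod.ext (P.eq m x.1 h.1) (Q.eq m x.2 h.2),
      fun m n e x h => Prod.ext (P.ne m n e x.1 h.1) (Q.ne m n e x.2 h.2), ?_⟩
    refine eq_top_iff.2 fun x _ => ?_
    have e : x = LinearMap.inl ℂ A.R B.R x.1 + LinearMap.inr ℂ A.R B.R x.2 := by simp
    rw [e]
    refine add_mem ?_ ?_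
    · induction x.1 using A.ind with
      | zero => rw [map_zero]; exact zero_mem _
      | hom m y hy => exact Submodule.mem_iSup_of_mem m ⟨hy, zero_mem _⟩
      | add y z hy hz => rw [map_add]; exact add_mem hy hz
    · induction x.2 using B.ind with
      | zero => rw [map_zero]; exact zero_mem _
      | hom m y hy => exact Submodule.mem_iSup_of_mem m ⟨zero_mem _, hy⟩
      | add y z hy hz => rw [map_add]; exact add_mem hy hz

variable {A B : DGA}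

theorem sz_pa (n : ℤ) (a : (pa A B).R) : (pa A B).sz n a = (A.sz n a.1, B.sz n a.2) := by
  by_cases h : Even n
  · rw [DGA.sz_even _ h, DGA.sz_even _ h, DGA.sz_even _ h]
  · rw [DGA.sz_odd _ h, DGA.sz_odd _ h, DGA.sz_odd _ h]
    rfl

/-- The first inclusion. -/
def inlN (A B : DGA) : NHom A (pa A B) :=
  ⟨LinearMap.inl ℂ A.R B.R, fun _ _ => Prod.ext rfl (mul_zero _).symm,
    fun _ => Prod.ext rfl (map_zero B.d).symm, fun _ _ h => ⟨h, zero_mem _⟩⟩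

/-- The second inclusion. -/
def inrN (A B : DGA) : NHom B (pa A B) :=
  ⟨LinearMap.inr ℂ A.R B.R, fun _ _ => Prod.ext (mul_zero _).symm rfl,
    fun _ => Prod.ext (map_zero A.d).symm rfl, fun _ _ h => ⟨zero_mem _, h⟩⟩

/-- The product of two modules. -/
abbrev pmod (M : DGM A) (N : DGM B) : DGM (pa A B) where
  toGD := gp M.toGD N.toGD
  act := (LinearMap.prodMapAlgHom ℂ M.V N.V).comp (M.act.prodMap N.act)
  leib a x := Prod.ext (M.leib a.1 x.1) (N.leib a.2 x.2)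
  act_gr i m _ _ ha hx := ⟨M.act_gr i m _ _ ha.1 hx.1, N.act_gr i m _ _ ha.2 hx.2⟩

variable {I : Type u} [Category.{v} I] {D D₁ D₂ : DD I} {R : RD I}

/-- The product of two diagrams. -/
abbrev pd (D₁ D₂ : DD I) : DD I where
  A i := pa (D₁.A i) (D₂.A i)
  τ α := ⟨(D₁.τ α).f.prodMap (D₂.τ α).f,
    fun a => Prod.ext ((D₁.τ α).comm a.1) ((D₂.τ α).comm a.2),
    fun m _ h => ⟨(D₁.τ α).deg m _ h.1, (D₂.τ α).deg m _ h.2⟩⟩
  τ_id i a := Prod.ext (D₁.τ_id i a.1) (D₂.τ_id i a.2)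
  τ_comp α β a := Prod.ext (D₁.τ_comp α β a.1) (D₂.τ_comp α β a.2)

/-- The base rings of the product. -/
def pb (b₁ : Base D₁ R) (b₂ : Base D₂ R) : Base (pd D₁ D₂) R where
  ι i := (b₁.ι i).prod (b₂.ι i)
  gr i z := ⟨b₁.gr i z, b₂.gr i z⟩
  d i z := Prod.ext (b₁.d i z) (b₂.d i z)
  τ_ι α z := Prod.ext (b₁.τ_ι α z) (b₂.τ_ι α z)

/-- The first inclusion. -/
def inlD (D₁ D₂ : DD I) : DHom D₁ (pd D₁ D₂) :=
  ⟨fun _ => inlN _ _, fun α _ => Prod.ext rfl (map_zero (D₂.τ α).f)⟩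

/-- The second inclusion. -/
def inrD (D₁ D₂ : DD I) : DHom D₂ (pd D₁ D₂) :=
  ⟨fun _ => inrN _ _, fun α _ => Prod.ext (map_zero (D₁.τ α).f) rfl⟩

theorem over_inl (b₁ : Base D₁ R) (b₂ : Base D₂ R) : (inlD D₁ D₂).Over b₁ (pb b₁ b₂) :=
  ⟨fun _ _ => Prod.ext (one_mul _).symm (zero_mul _).symm,
    fun _ _ => Prod.ext (mul_one _).symm (mul_zero _).symm⟩

theorem over_inr (b₁ : Base D₁ R) (b₂ : Base D₂ R) : (inrD D₁ D₂).Over b₂ (pb b₁ b₂) :=
  ⟨fun _ _ => Prod.ext (zero_mul _).symm (one_mul _).symm,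
    fun _ _ => Prod.ext (mul_zero _).symm (mul_one _).symm⟩

/-- The product of two modules. -/
def pm (M : DM D₁) (N : DM D₂) : DM (pd D₁ D₂) where
  M i := pmod (M.M i) (N.M i)
  ρ α := gpm (M.ρ α) (N.ρ α)
  ρ_act α a x := Prod.ext (M.ρ_act α a.1 x.1) (N.ρ_act α a.2 x.2)
  ρ_id i x := Prod.ext (M.ρ_id i x.1) (N.ρ_id i x.2)
  ρ_comp α β x := Prod.ext (M.ρ_comp α β x.1) (N.ρ_comp α β x.2)

/-- The product of two cochains. -/
def pmC {M M' : DM D₁} {N N' : DM D₂} {n : ℤ} (z : DM.Coch M M' n) (w : DM.Coch N N' n) :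
    DM.Coch (pm M N) (pm M' N') n where
  f i := (z.f i).prodMap (w.f i)
  deg i m x h := ⟨z.deg i m x.1 h.1, w.deg i m x.2 h.2⟩
  act i a x := by
    rw [sz_pa]
    exact Prod.ext (z.act i a.1 x.1) (w.act i a.2 x.2)
  tr α x := Prod.ext (z.tr α x.1) (w.tr α x.2)

/-- The functor `(M, N) ↦ M × N`. -/
def Th (D₁ D₂ : DD I) : DGF (dprod (mdc D₁) (mdc D₂)) (mdc (pd D₁ D₂)) :=
  mkF (fun X => pm X.1 X.2) (fun _ a => pmC a.1 a.2) (fun _ _ _ _ _ => rfl)
    (fun _ _ _ _ _ => rfl) (fun _ _ _ => rfl) (fun _ _ _ _ _ => rfl)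
    (fun _ _ a h i x => Prod.ext (mdl_f h a.1 i x.1) (mdl_f h a.2 i x.2))
    fun _ _ a h => Prod.ext (mdl_ne h a.1) (mdl_ne h a.2)

/-- The functor `M ↦ (e₁ M, e₂ M)`. -/
def Xp (D₁ D₂ : DD I) : DGF (mdc (pd D₁ D₂)) (dprod (mdc D₁) (mdc D₂)) :=
  dpair (inlD D₁ D₂).Xi (inrD D₁ D₂).Xi

theorem cart_pm {b₁ : Base D₁ R} {b₂ : Base D₂ R} {M : DM D₁} {N : DM D₂} (h : Cart b₁ M)
    (h' : Cart b₂ N) : Cart (pb b₁ b₂) (pm M N) := fun i j α =>
  (db_prod (h i j α) (h' i j α)).fwd (u := Hom.id _) (v := Hom.id _) ((pb b₁ b₂).sl (pm M N) α)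
    (fun _ _ => rfl) (fun _ _ => rfl) (Qis.id _) (Qis.id _) fun _ => rfl

section Pt

variable (M : DGM (pa A B))

theorem act_split (x : M.V) : M.act (1, 0) x + M.act (0, 1) x = x := by
  rw [← LinearMap.add_apply, ← map_add, Prod.mk_add_mk, add_zero, zero_add]
  exact M.act_one x

theorem act_l (a : (pa A B).R) (x : ((inlN A B).cut M).V) : M.act a x.1 = M.act (a.1, 0) x.1 := by
  have e : M.act (1, 0) x.1 = x.1 := Img.fix x
  exact (congrArg (M.act a) e).symm.trans ((M.act_mul _ _ _).symm.trans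
    (congrArg (M.act · x.1) (Prod.ext (mul_one _) (mul_zero _))))

theorem act_r (a : (pa A B).R) (x : ((inrN A B).cut M).V) : M.act a x.1 = M.act (0, a.2) x.1 := by
  have e : M.act (0, 1) x.1 = x.1 := Img.fix x
  exact (congrArg (M.act a) e).symm.trans ((M.act_mul _ _ _).symm.trans
    (congrArg (M.act · x.1) (Prod.ext (mul_zero _) (mul_one _))))

/-- The sum `e₁ M × e₂ M → M`. -/
def sm : Hom (pmod ((inlN A B).cut M) ((inrN A B).cut M)).toGD M.toGD where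
  f := (Img.incl ((inlN A B).le M)).f.coprod (Img.incl ((inrN A B).le M)).f
  comm x := (map_add M.d x.1.1 x.2.1).symm
  deg _ _ h := add_mem h.1 h.2

theorem sm_act (a : (pa A B).R) (x : (pmod ((inlN A B).cut M) ((inrN A B).cut M)).V) :
    (sm M).f ((pmod ((inlN A B).cut M) ((inrN A B).cut M)).act a x) = M.act a ((sm M).f x) :=
  (congrArg₂ (· + ·) (act_l M a x.1).symm (act_r M a x.2).symm).trans (map_add _ _ _).symm

theorem qis_sm : Qis (sm M) :=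
  qis_of_inv _ ⟨(Img.proj _ ((inlN A B).le_le M)).f.prod (Img.proj _ ((inrN A B).le_le M)).f,
      fun x => Prod.ext ((Img.proj _ ((inlN A B).le_le M)).comm x)
        ((Img.proj _ ((inrN A B).le_le M)).comm x),
      fun m x h => ⟨(Img.proj _ ((inlN A B).le_le M)).deg m x h,
        (Img.proj _ ((inrN A B).le_le M)).deg m x h⟩⟩
    (fun x => Prod.ext
      (Subtype.ext ((map_add (M.act (1, 0)) x.1.1 x.2.1).trans ((congrArg₂ (· + ·) (Img.fix x.1)
        ((act_r M (1, 0) x.2).trans (LinearMap.congr_fun (map_zero M.act) _))).trans (add_zero _))))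
      (Subtype.ext ((map_add (M.act (0, 1)) x.1.1 x.2.1).trans ((congrArg₂ (· + ·)
        ((act_l M (0, 1) x.1).trans (LinearMap.congr_fun (map_zero M.act) _)) (Img.fix x.2)).trans
          (zero_add _)))))
    (act_split M)

variable (N : DGM A) (N' : DGM B)

/-- The first projection. -/
def p1 : Hom ((inlN A B).cut (pmod N N')).toGD N.toGD :=
  ⟨(LinearMap.fst ℂ _ _).comp (Img.incl ((inlN A B).le (pmod N N'))).f, fun _ => rfl,
    fun _ _ h => h.1⟩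

/-- The second projection. -/
def p2 : Hom ((inrN A B).cut (pmod N N')).toGD N'.toGD :=
  ⟨(LinearMap.snd ℂ _ _).comp (Img.incl ((inrN A B).le (pmod N N'))).f, fun _ => rfl,
    fun _ _ h => h.2⟩

theorem qis_p1 : Qis (p1 N N') :=
  qis_of_inv _ (Img.lift _ ⟨LinearMap.inl ℂ _ _, fun _ => Prod.ext rfl (map_zero N'.d).symm,
      fun _ _ h => ⟨h, zero_mem _⟩⟩ fun y => Prod.ext (N.act_one y) (map_zero (N'.act 0)))
    (fun x => Subtype.ext (Prod.ext rfl ((LinearMap.congr_fun (map_zero N'.act) x.1.2).symm.trans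
      (congrArg Prod.snd (Img.fix x))))) fun _ => rfl

theorem qis_p2 : Qis (p2 N N') :=
  qis_of_inv _ (Img.lift _ ⟨LinearMap.inr ℂ _ _, fun _ => Prod.ext (map_zero N.d).symm rfl,
      fun _ _ h => ⟨zero_mem _, h⟩⟩ fun y => Prod.ext (map_zero (N.act 0)) (N'.act_one y))
    (fun x => Subtype.ext (Prod.ext ((LinearMap.congr_fun (map_zero N.act) x.1.1).symm.trans
      (congrArg Prod.fst (Img.fix x))) rfl)) fun _ => rfl

end Pt

/-- The counit. -/
def cou (D₁ D₂ : DD I) : (Xp D₁ D₂).z0 ⋙ (Th D₁ D₂).z0 ⟶ 𝟭 (Z0 (mdc (pd D₁ D₂))) :=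
  mnat (fun M => mmk (F := pm ((inlD D₁ D₂).xi (mo M)) ((inrD D₁ D₂).xi (mo M))) (F' := mo M)
      (fun i => sm ((mo M).M i)) (fun i => sm_act ((mo M).M i))
      fun α x => (map_add ((mo M).ρ α).f x.1.1 x.2.1).symm)
    fun _ _ a i x => (map_add (mh a i).f x.1.1 x.2.1).symm

/-- The first half of the unit. -/
def un1 (D₁ D₂ : DD I) :
    (Th D₁ D₂).z0 ⋙ (inlD D₁ D₂).Xi.z0 ⟶ (dfst (mdc D₁) (mdc D₂)).z0 :=
  mnat (fun X => mmk (F := (inlD D₁ D₂).xi (pm (ob X).1 (ob X).2)) (F' := (ob X).1)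
      (fun _ => p1 _ _) (fun _ _ _ => rfl) fun _ _ => rfl)
    fun _ _ _ _ _ => rfl

/-- The second half of the unit. -/
def un2 (D₁ D₂ : DD I) :
    (Th D₁ D₂).z0 ⋙ (inrD D₁ D₂).Xi.z0 ⟶ (dsnd (mdc D₁) (mdc D₂)).z0 :=
  mnat (fun X => mmk (F := (inrD D₁ D₂).xi (pm (ob X).1 (ob X).2)) (F' := (ob X).2)
      (fun _ => p2 _ _) (fun _ _ _ => rfl) fun _ _ => rfl)
    fun _ _ _ _ _ => rfl

theorem inv_prod (D₁ D₂ : DD I) :
    Inv ((wm D₁).prod (wm D₂)).W (mqis (pd D₁ D₂)) (Th D₁ D₂).z0 (Xp D₁ D₂).z0 where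
  pF _ _ _ h i := qis_gpm (h.1 i) (h.2 i)
  pG _ _ u h := ⟨fun i => Img.qis_map (NHom.le_le _ _) (NHom.le_le _ _) (mh u i) (mh_act u i _) (h i),
    fun i => Img.qis_map (NHom.le_le _ _) (NHom.le_le _ _) (mh u i) (mh_act u i _) (h i)⟩
  un := zig_pair (P := wm D₁) (Q := wm D₂) (NatW.zig ⟨un1 D₁ D₂, fun _ _ => qis_p1 _ _⟩)
    (NatW.zig ⟨un2 D₁ D₂, fun _ _ => qis_p2 _ _⟩)
  co := NatW.zig ⟨cou D₁ D₂, fun _ _ => qis_sm _⟩

/-- Full subcategories of a product. -/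
theorem wfull_prod (X : WD.{u₁, v₁}) (Y : WD.{u₂, v₂}) (P : X.C.Obj → Prop) (Q : Y.C.Obj → Prop) :
    EQV (wfull (X.prod Y) fun Z => P Z.1 ∧ Q Z.2) ((wfull X P).prod (wfull Y Q)) :=
  ⟨dpair (((DGF.incl (dprod X.C Y.C) _).comp (dfst _ _)).lift fun Z => Z.2.1)
      (((DGF.incl (dprod X.C Y.C) _).comp (dsnd _ _)).lift fun Z => Z.2.2),
    (dpair ((dfst _ _).comp (DGF.incl X.C P)) ((dsnd _ _).comp (DGF.incl Y.C Q))).lift
      fun Z => ⟨Z.1.2, Z.2.2⟩,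
    fun _ _ _ h => h, fun _ _ _ h => h, Relation.EqvGen.refl _, Relation.EqvGen.refl _⟩

/-- **Cartesian modules over a product.** -/
theorem eqv_pd (b₁ : Base D₁ R) (b₂ : Base D₂ R) :
    EQV (wc (pb b₁ b₂)) ((wc b₁).prod (wc b₂)) :=
  (eqv_full (X := (wm D₁).prod (wm D₂)) (Y := wm (pd D₁ D₂))
    (P := fun Z => Cart b₁ Z.1 ∧ Cart b₂ Z.2) (inv_prod D₁ D₂)
    (fun _ _ _ h => and_congr (invt_cart b₁ _ h.1) (invt_cart b₂ _ h.2))
    fun M => ⟨fun h => ⟨(inlD D₁ D₂).cart_xi (over_inl b₁ b₂) M h,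
      (inrD D₁ D₂).cart_xi (over_inr b₁ b₂) M h⟩,
      fun h => (cart_iff (M := pm ((inlD D₁ D₂).xi M) ((inrD D₁ D₂).xi M)) (M' := M)
        (fun i => sm (M.M i)) (fun _ => qis_sm _) (fun i _ => sm_act (M.M i) _)
        fun α x => (map_add (M.ρ α).f x.1.1 x.2.1).symm).1 (cart_pm h.1 h.2)⟩).symm.trans
    (wfull_prod (wm D₁) (wm D₂) (Cart b₁) (Cart b₂))

end

end Vale.Agent.P286E50
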