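import Vale.Agent.P286E50.Tw
import Vale.Agent.P286EA2.End

/-!
# The splitting, in the form of the final assembly
-/

namespace Vale.Agent.P286E50

open Vale.Agent.P286E48 Vale.Agent.P286EA2

theorem spl_of {W W₁ W₂ : WA} (g₁ : WH W₁ W) (g₂ : WH W₂ W) (h : Spl g₁.φ g₂.φ) : SPL W W₁ W₂ :=
  fun _ _ _ xd lam => splitTW lam xd g₁ g₂ h

end Vale.Agent.P286E50
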