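import Vale.Agent.P286E50.Split
import Vale.Agent.P286E48.Map

/-!
# Splitting of the twisted chart algebras
-/

namespace Vale.Agent.P286E50

open CategoryTheory Vale.Agent.P286E Vale.Agent.P286EK Vale.Agent.P286EX Vale.Agent.P286E48

noncomputable section

variable {I : Type} [SmallCategory I] {D : CD I} {W W₁ W₂ : WA}

theorem splitTW' (lam : ℂ) (xd : XD D) (g₁ : WH W₁ W) (g₂ : WH W₂ W) (h : Cpl g₁.φ g₂.φ)
    (h₁ : MorH g₁.φ) (h₂ : MorH g₂.φ) :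
    EQV (wc (twB lam W xd)) ((wc (twB lam W₁ xd)).prod (wc (twB lam W₂ xd))) :=
  split (TW.map xd.vfd lam g₁) (TW.map xd.vfd lam g₂)
    (fun i => (h.tn (Dp xd.vfd i)).tw _ _ _ (tn_F_l xd.vfd g₁ i) (tn_F_r xd.vfd g₁ i)
      (tn_F_l xd.vfd g₂ i) (tn_F_r xd.vfd g₂ i))
    (TW.map_morH xd.vfd lam g₁ h₁) (TW.map_morH xd.vfd lam g₂ h₂)
    (TW.map_over lam g₁ xd) (TW.map_over lam g₂ xd)

/-- **The splitting.** -/
theorem splitTW (lam : ℂ) (xd : XD D) (g₁ : WH W₁ W) (g₂ : WH W₂ W) (h : Spl g₁.φ g₂.φ) :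
    EQV (wc (twB lam W xd)) ((wc (twB lam W₁ xd)).prod (wc (twB lam W₂ xd))) :=
  splitTW' lam xd g₁ g₂ h.cpl h.morH₁ h.morH₂

end

end Vale.Agent.P286E50
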